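import Vale.Agent.Q218.First

open MeasureTheory Set Filter
open scoped Manifold ContDiff
open Vale.Agent.P218FS.St Vale.Agent.P218S.St

/-- **Uniqueness of tangent flows up to and including the first singular time.**
Let `F : [0, T) × N → ℝ³` be the smooth mean curvature flow of a compact connected embedded surface,
`M_t = F_t(N)`, and let `μ` be any family of measures with `μ_t = ℋ² ⌞ M_t` for `0 ≤ t < T`. Then
`F_t` stays injective, and for every `x₀` and `0 < t₀ ≤ T` there is one smooth properly embedded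
self-shrinker `S` (not empty iff the flow reaches `x₀` at time `t₀`) such that
`s ↦ ℋ² ⌞ √(-s) S` is a tangent flow, it is the only one, and the rescalings converge to it as
`λ → ∞`, weakly and locally smoothly with multiplicity one. -/
theorem Vale.Agent.Results.P218.A0FirstSingularTime.result
    (N : Type) [TopologicalSpace N] [T2Space N] [CompactSpace N] [ConnectedSpace N]
    [ChartedSpace R2 N] [IsManifold (𝓡 2) ∞ N] (F : ℝ → N → R3) (T : ℝ) (hF : IsSmoothMCF F T)
    (μ : ℝ → Measure R3) (hμ : ∀ t ∈ Ico 0 T, μ t = area (range (F t))) :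
    (∀ t ∈ Ico 0 T, Function.Injective (F t)) ∧
    ∀ (x₀ : R3) (t₀ : ℝ), 0 < t₀ → t₀ ≤ T →
      ∃ S : Set R3, IsShrinker S ∧ (S.Nonempty ↔ IsReached F x₀ t₀) ∧
        IsTangentFlow μ x₀ t₀ (shrinkerFlow S) ∧
        (∀ ν : ℝ → Measure R3, IsTangentFlow μ x₀ t₀ ν → ∀ s < 0, ν s = shrinkerFlow S s) ∧
        (∀ s < 0, WeakTendsto atTop (fun lam : ℝ => rescaled μ x₀ t₀ lam s) (shrinkerFlow S s)) ∧
        SmoothTendsto (rescaledSurface F x₀ t₀) (shrinkingSurface S) := by
  have h : Vale.Agent.P218FS.IsSmoothMCF F T := ⟨hF.smooth, hF.immersion, hF.embedding, hF.flow⟩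
  refine ⟨fun t ht => h.injective ht, fun x₀ t₀ h0 hT => ?_⟩
  obtain ⟨S, h1, h2, h3, h4, h5, h6⟩ := Vale.Agent.Q218.first N F T h μ hμ x₀ t₀ h0 hT
  exact ⟨S, ⟨h1.closed, h1.param⟩, h2, h3, h4, h5, h6⟩
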